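import Vale.Agent.Lib.P069.Coord
import Vale.Agent.Lib.P069.helper99.Reflexive

open scoped ENNReal

namespace Vale.Agent.Lib.P069

variable {n : ℕ}

/-- the norm one inclusion of `Y n` into l2 -/
noncomputable def Pmap (n : ℕ) : Y n →L[ℝ] lp (fun _ : List ℕ => ℝ) 2 :=
  LinearMap.mkContinuous (phi ∘ₗ Y.toFs n) 1 (fun x => by
    rw [one_mul, Y.norm_def]
    exact le_max_left _ _)

lemma Pmap_apply (x : Y n) (s : List ℕ) : (Pmap n x : List ℕ → ℝ) s = x s := rfl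

lemma coord_memℓp (f : X n) : Memℓp (fun s : List ℕ => f (bv n s)) 2 := by
  refine memℓp_gen' (C := ((n + 1) * ‖f‖) ^ 2) (fun S => ?_)
  have h := sum_sq_coord_le f S
  have h2 : ∑ i ∈ S, ‖f (bv n i)‖ ^ (2 : ℝ≥0∞).toReal = ∑ s ∈ S, (f (bv n s)) ^ 2 := by
    apply Finset.sum_congr rfl
    intro s _
    simp
  rw [h2]
  exact h

/-- the coordinate sequence of a functional on `Y n` -/
noncomputable def coordSeq (f : X n) : lp (fun _ : List ℕ => ℝ) 2 :=
  ⟨fun s => f (bv n s), coord_memℓp f⟩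

lemma coordSeq_apply (f : X n) (s : List ℕ) : (coordSeq f : List ℕ → ℝ) s = f (bv n s) := rfl

lemma norm_coordSeq_le (f : X n) : ‖coordSeq f‖ ≤ (n + 1) * ‖f‖ := by
  have hp : 0 < (2 : ℝ≥0∞).toReal := by norm_num
  have hC : (0 : ℝ) ≤ (n + 1) * ‖f‖ := mul_nonneg (by positivity) (norm_nonneg f)
  apply lp.norm_le_of_forall_sum_le hp hC
  intro S
  have h2 : ∑ i ∈ S, ‖(coordSeq f : List ℕ → ℝ) i‖ ^ (2 : ℝ≥0∞).toReal
      = ∑ s ∈ S, (f (bv n s)) ^ 2 := by
    apply Finset.sum_congr rfl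
    intro s _
    simp [coordSeq_apply]
  rw [h2]
  have h3 : ((n + 1 : ℝ) * ‖f‖) ^ (2 : ℝ≥0∞).toReal = ((n + 1 : ℝ) * ‖f‖) ^ 2 := by simp
  rw [h3]
  exact sum_sq_coord_le f S

/-- the functional on `Y n` given by an l2 sequence -/
noncomputable def seqFun (v : lp (fun _ : List ℕ => ℝ) 2) : X n :=
  (innerSL ℝ v).comp (Pmap n)

lemma seqFun_apply (v : lp (fun _ : List ℕ => ℝ) 2) (x : Y n) :
    seqFun v x = inner ℝ v (Pmap n x) := rfl

lemma norm_Pmap_le (x : Y n) : ‖Pmap n x‖ ≤ ‖x‖ := by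
  have h : ‖Pmap n x‖ = ‖phi (Y.toFs n x)‖ := rfl
  rw [h, Y.norm_def]
  exact le_max_left _ _

lemma norm_seqFun_le (v : lp (fun _ : List ℕ => ℝ) 2) : ‖(seqFun v : X n)‖ ≤ 1 * ‖v‖ := by
  rw [one_mul]
  refine ContinuousLinearMap.opNorm_le_bound _ (norm_nonneg v) (fun x => ?_)
  rw [seqFun_apply]
  calc ‖inner ℝ v (Pmap n x)‖ ≤ ‖v‖ * ‖Pmap n x‖ := norm_inner_le_norm _ _
    _ ≤ ‖v‖ * ‖x‖ := mul_le_mul_of_nonneg_left (norm_Pmap_le x) (norm_nonneg v)

lemma inner_eq_tsum_mul (v w : lp (fun _ : List ℕ => ℝ) 2) :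
    inner ℝ v w = ∑' s, (v : List ℕ → ℝ) s * (w : List ℕ → ℝ) s := by
  rw [lp.inner_eq_tsum]
  apply tsum_congr
  intro s
  exact Real.inner_apply _ _

lemma seqFun_coordSeq (f : X n) : seqFun (coordSeq f) = f := by
  ext x
  rw [seqFun_apply, inner_eq_tsum_mul]
  set S : Finset (List ℕ) := (Y.toFs n x).support with hS
  have hSx : ∀ s, x s ≠ 0 → s ∈ S := fun s hs => Finsupp.mem_support_iff.mpr hs
  rw [apply_eq_sum f x S hSx, tsum_eq_sum (s := S)]
  · apply Finset.sum_congr rfl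
    intro s _
    rw [coordSeq_apply, Pmap_apply, mul_comm]
  · intro s hs
    have h0 : x s = 0 := by
      by_contra h
      exact hs (hSx s h)
    rw [Pmap_apply, h0, mul_zero]

lemma coordSeq_seqFun (v : lp (fun _ : List ℕ => ℝ) 2) : coordSeq (seqFun v : X n) = v := by
  apply lp.ext
  funext s
  rw [coordSeq_apply, seqFun_apply, inner_eq_tsum_mul, tsum_eq_single s]
  · rw [Pmap_apply, bv_apply, if_pos rfl, mul_one]
  · intro t ht
    rw [Pmap_apply, bv_apply, if_neg (fun h => ht h.symm), mul_zero]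

/-- the linear equivalence between the dual of `Y n` and l2 -/
noncomputable def XlinEquiv (n : ℕ) : X n ≃ₗ[ℝ] lp (fun _ : List ℕ => ℝ) 2 where
  toFun := coordSeq
  map_add' f g := by
    apply lp.ext
    funext s
    rfl
  map_smul' r f := by
    apply lp.ext
    funext s
    rfl
  invFun := seqFun
  left_inv := seqFun_coordSeq
  right_inv := coordSeq_seqFun

theorem X_equiv (n : ℕ) : Nonempty (X n ≃L[ℝ] lp (fun _ : List ℕ => ℝ) 2) :=
  ⟨(XlinEquiv n).toContinuousLinearEquivOfBounds (n + 1) 1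
    (fun f => norm_coordSeq_le f) (fun v => norm_seqFun_le v)⟩

theorem X_reflexive (n : ℕ) :
    Function.Surjective (NormedSpace.inclusionInDoubleDual ℝ (X n)) := by
  obtain ⟨e⟩ := X_equiv n
  exact reflexive_of_equiv e.symm (hilbert_reflexive _)

end Vale.Agent.Lib.P069
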